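import Vale.Agent.P111.Defs
import Mathlib.Algebra.MvPolynomial.Degrees
import Mathlib.Algebra.Polynomial.Degree.Lemmas

/-! `gt`: a polynomial on the ball of `ℝ^M` whose part odd in one variable is `h(u_i)`. -/

namespace Vale.Agent.P111.TP

open Finset Polynomial

/-- The conclusion of Chebyshev's lemma for polynomials with a zero at `0`. -/
def Cheb1Prop : Prop := ∀ (p : Polynomial ℝ) (d j : ℕ), 0 < j → p.natDegree ≤ d →
  (∀ i < j, p.coeff i = 0) → ∀ A R : ℝ, 0 < R → (∀ x : ℝ, |x| ≤ R → |p.eval x| ≤ A) →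
  Real.exp 1 * d / (j * R) ≤ 1 / 2 →
  |p.eval 1| ≤ 4 * (d + 1) * A * (Real.exp 1 * d / (j * R)) ^ j

/-- The conclusion of Bernstein's inequality at `0`. -/
def Cheb2Prop : Prop := ∀ (p : Polynomial ℝ) (m : ℕ), p.natDegree ≤ m → ∀ A : ℝ,
  (∀ x : ℝ, |x| ≤ 1 → |p.eval x| ≤ A) → |p.coeff 1| ≤ 2 * m * A

section abstract

variable {K : Type*} [Fintype K] {M : ℕ} (P : MvPolynomial (Fin M) ℝ)

/-- The expectation with respect to the product weights `w`. -/
noncomputable def EW (w : Fin M → K → ℝ) (x : Fin M → K → ℝ) : ℝ :=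
  ∑ κ : Fin M → K, (∏ i, w i (κ i)) * MvPolynomial.eval (fun i => x i (κ i)) P

theorem EW_eq (w x : Fin M → K → ℝ) :
    EW P w x = ∑ μ ∈ P.support, P.coeff μ * ∏ i, ∑ k, w i k * x i k ^ μ i := by
  classical
  unfold EW
  simp_rw [MvPolynomial.eval_eq', mul_sum]
  rw [sum_comm]
  refine sum_congr rfl fun μ _ => ?_
  rw [Finset.prod_univ_sum, Fintype.piFinset_univ, mul_sum]
  refine sum_congr rfl fun κ _ => ?_
  rw [prod_mul_distrib]
  ring

theorem EW_bound (w v x : Fin M → K → ℝ) (A : ℝ) (hwv : ∀ i k, |w i k| ≤ v i k)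
    (hv : ∀ i, ∑ k, v i k = 1)
    (hP : ∀ κ : Fin M → K, |MvPolynomial.eval (fun i => x i (κ i)) P| ≤ A) :
    |EW P w x| ≤ A := by
  classical
  unfold EW
  calc |∑ κ : Fin M → K, (∏ i, w i (κ i)) * MvPolynomial.eval (fun i => x i (κ i)) P|
      ≤ ∑ κ : Fin M → K, |(∏ i, w i (κ i)) * MvPolynomial.eval (fun i => x i (κ i)) P| :=
        abs_sum_le_sum_abs _ _
    _ ≤ ∑ κ : Fin M → K, (∏ i, v i (κ i)) * A := by
        refine sum_le_sum fun κ _ => ?_
        rw [abs_mul, abs_prod]
        exact mul_le_mul (prod_le_prod (fun i _ => abs_nonneg _) fun i _ => hwv i _) (hP κ)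
          (abs_nonneg _) (prod_nonneg fun i _ => (abs_nonneg _).trans (hwv i _))
    _ = A := by
        rw [← sum_mul]
        have : ∑ κ : Fin M → K, ∏ i, v i (κ i) = ∏ i, ∑ k, v i k := by
          rw [Finset.prod_univ_sum, Fintype.piFinset_univ]
        rw [this]
        simp [hv]

/-- The polynomial `ζ ↦ F_T(ζ)`. -/
noncomputable def FT (p o z : K → ℝ) (T : Finset (Fin M)) : Polynomial ℝ :=
  ∑ μ ∈ P.support, C (P.coeff μ * ∏ i, ∑ k, (if i ∈ T then o k else p k) * z k ^ μ i) *
    X ^ (∑ i ∈ T, μ i)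

theorem FT_eval (p o z : K → ℝ) (T : Finset (Fin M)) (ζ : ℝ) :
    (FT P p o z T).eval ζ = EW P (fun i k => if i ∈ T then o k else p k)
      (fun i k => (if i ∈ T then ζ else 1) * z k) := by
  classical
  rw [EW_eq, FT, eval_finsetSum]
  refine sum_congr rfl fun μ _ => ?_
  simp only [eval_mul, eval_C, eval_pow, eval_X]
  have h1 : ∀ i, ∑ k, (if i ∈ T then o k else p k) * ((if i ∈ T then ζ else 1) * z k) ^ μ i
      = (if i ∈ T then ζ else 1) ^ μ i * ∑ k, (if i ∈ T then o k else p k) * z k ^ μ i := by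
    intro i
    rw [mul_sum]
    refine sum_congr rfl fun k _ => ?_
    rw [mul_pow]; ring
  simp_rw [h1]
  rw [prod_mul_distrib]
  have h2 : ∏ i, (if i ∈ T then ζ else (1:ℝ)) ^ μ i = ζ ^ ∑ i ∈ T, μ i := by
    rw [← Finset.prod_pow_eq_pow_sum]
    rw [← Finset.prod_subset (Finset.subset_univ T)]
    · refine prod_congr rfl fun i hi => by simp [hi]
    · intro i _ hi; simp [hi]
  rw [h2]; ring

theorem FT_natDegree (p o z : K → ℝ) (T : Finset (Fin M)) {d : ℕ} (hd : P.totalDegree ≤ d) :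
    (FT P p o z T).natDegree ≤ d := by
  classical
  unfold FT
  refine natDegree_sum_le_of_forall_le _ _ fun μ hμ => ?_
  refine (natDegree_C_mul_X_pow_le _ _).trans ?_
  refine le_trans ?_ ((MvPolynomial.le_totalDegree hμ).trans hd)
  rw [Finsupp.sum_fintype _ _ (fun _ => rfl)]
  exact Finset.sum_le_sum_of_subset (Finset.subset_univ T)

theorem FT_coeff (p o z : K → ℝ) (T : Finset (Fin M)) (r : ℕ)
    (ho : ∀ k < r, ∑ j, o j * z j ^ k = 0) (n : ℕ) (hn : n < r * T.card) :
    (FT P p o z T).coeff n = 0 := by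
  classical
  unfold FT
  rw [finsetSum_coeff]
  refine sum_eq_zero fun μ _ => ?_
  rw [coeff_C_mul, coeff_X_pow]
  split_ifs with h
  · have hex : ∃ i ∈ T, μ i < r := by
      by_contra hcon
      push Not at hcon
      have : r * T.card ≤ ∑ i ∈ T, μ i := by
        calc r * T.card = ∑ i ∈ T, r := by simp [mul_comm]
          _ ≤ _ := sum_le_sum hcon
      omega
    obtain ⟨i, hi, hlt⟩ := hex
    have : ∏ i, ∑ k, (if i ∈ T then o k else p k) * z k ^ μ i = 0 := by
      refine prod_eq_zero (mem_univ i) ?_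
      simp [hi, ho _ hlt]
    rw [this]; simp
  · simp

theorem FT_bound (p o z : K → ℝ) (T : Finset (Fin M)) {A c τ : ℝ}
    (hP : ∀ u : Fin M → ℝ, ∑ i, u i ^ 2 ≤ c ^ 2 → |MvPolynomial.eval u P| ≤ A)
    (hz : ∀ j, |z j| ≤ τ) (hop : ∀ j, |o j| ≤ p j) (hp : ∑ j, p j = 1)
    (ζ : ℝ) (hζ : ζ ^ 2 * (T.card * τ ^ 2) + M * τ ^ 2 ≤ c ^ 2) :
    |(FT P p o z T).eval ζ| ≤ A := by
  classical
  rw [FT_eval]
  refine EW_bound P _ (fun _ => p) _ A (fun i k => ?_) (fun i => hp) fun κ => hP _ ?_
  · split_ifs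
    · exact hop k
    · exact (abs_of_nonneg ((abs_nonneg _).trans (hop k))).le
  · have hz2 : ∀ j, z j ^ 2 ≤ τ ^ 2 := fun j => by
      rw [← sq_abs]; exact pow_le_pow_left₀ (abs_nonneg _) (hz j) 2
    calc ∑ i, ((if i ∈ T then ζ else 1) * z (κ i)) ^ 2
        ≤ ∑ i, ((if i ∈ T then ζ ^ 2 * τ ^ 2 else 0) + τ ^ 2) := by
          refine sum_le_sum fun i _ => ?_
          split_ifs
          · rw [mul_pow]
            have := mul_le_mul_of_nonneg_left (hz2 (κ i)) (sq_nonneg ζ)
            nlinarith [sq_nonneg τ]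
          · rw [one_mul, zero_add]; exact hz2 _
      _ = ζ ^ 2 * (T.card * τ ^ 2) + M * τ ^ 2 := by
          rw [sum_add_distrib, ← Finset.sum_filter]
          simp only [Finset.filter_mem_eq_inter, Finset.univ_inter, sum_const, nsmul_eq_mul,
            Finset.card_univ, Fintype.card_fin]
          ring
      _ ≤ c ^ 2 := hζ

theorem G_expand (p o z : K → ℝ) (a : ℝ) :
    EW P (fun _ k => a * o k + p k) (fun _ => z) =
      ∑ T : Finset (Fin M), a ^ T.card * (FT P p o z T).eval 1 := by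
  classical
  simp_rw [FT_eval]
  unfold EW
  simp_rw [mul_sum]
  rw [sum_comm]
  refine sum_congr rfl fun κ _ => ?_
  rw [Finset.prod_add, sum_mul]
  rw [Finset.powerset_univ]
  refine sum_congr rfl fun T _ => ?_
  have h1 : (fun i => (if i ∈ T then (1:ℝ) else 1) * z (κ i)) = fun i => z (κ i) := by
    funext i; simp
  rw [h1]
  have h2 : ∏ i, (if i ∈ T then o (κ i) else p (κ i)) =
      (∏ i ∈ T, o (κ i)) * ∏ i ∈ univ \ T, p (κ i) := by
    rw [← Finset.prod_sdiff (Finset.subset_univ T), mul_comm]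
    congr 1
    · exact prod_congr rfl fun i hi => by simp [hi]
    · exact prod_congr rfl fun i hi => by simp [(Finset.mem_sdiff.1 hi).2]
  rw [h2, prod_mul_distrib, prod_const]
  ring

theorem tail_le (x : ℝ) (hx : 0 ≤ x) (M : ℕ) (h : M * x ≤ 1 / 2) :
    ∑ T : Finset (Fin M), x ^ T.card ≤ 1 + 2 * (M * x) := by
  have h1 : ∑ T : Finset (Fin M), x ^ T.card = (x + 1) ^ M := by
    have := Fintype.sum_pow_mul_eq_add_pow (Fin M) x 1
    simpa using this
  rw [h1]
  have hMx : 0 ≤ M * x := by positivity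
  calc (x + 1) ^ M ≤ (Real.exp x) ^ M := pow_le_pow_left₀ (by linarith) (Real.add_one_le_exp x) M
    _ = Real.exp (M * x) := by rw [← Real.exp_nat_mul]
    _ ≤ 1 + 2 * (M * x) := by
        have h2 := Real.one_sub_le_exp_neg (M * x)
        have h3 : Real.exp (M * x) * Real.exp (-(M * x)) = 1 := by
          rw [← Real.exp_add]; simp
        have h4 := Real.exp_pos (M * x)
        nlinarith

/-- The main estimate, for weights on a finite type. -/
theorem gt_core (cheb1 : Cheb1Prop) (cheb2 : Cheb2Prop) {l d ts : ℕ} (hd : P.totalDegree ≤ d)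
    {A c τ : ℝ} (hA : 0 ≤ A) (hc : 0 < c) (hτ : 0 < τ)
    (hP : ∀ u : Fin M → ℝ, ∑ i, u i ^ 2 ≤ c ^ 2 → |MvPolynomial.eval u P| ≤ A)
    (z o p : K → ℝ) (hz : ∀ j, |z j| ≤ τ) (hop : ∀ j, |o j| ≤ p j) (hp : ∑ j, p j = 1)
    (hmom : ∀ k, k < 2 * l + 1 → ∑ j, o j * z j ^ k = 0)
    (hM : (M:ℝ) * τ ^ 2 ≤ c ^ 2 / 2) (hts : 1 ≤ ts)
    (hβ : Real.exp 1 * √2 * d * τ / ((2 * l + 1) * c * √ts) ≤ 1 / 2)
    (hβ2 : 24 * (d + 1) * M * (Real.exp 1 * √2 * d * τ / ((2 * l + 1) * c * √ts)) ^ (2 * l + 1)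
      ≤ 1) :
    |∑ i : Fin M, (FT P p o z {i}).eval 1| ≤ 4 * A * ts := by
  classical
  set β := Real.exp 1 * √2 * d * τ / ((2 * l + 1) * c * √ts) with hβdef
  have hβ0 : 0 ≤ β := by positivity
  have hts0 : (0:ℝ) < ts := by exact_mod_cast hts
  -- the growth estimate
  have hgrow : ∀ T : Finset (Fin M), ts < T.card →
      |(FT P p o z T).eval 1| ≤ 4 * (d + 1) * A * (β ^ (2 * l + 1)) ^ T.card := by
    intro T hT
    have ht0 : (0:ℝ) < T.card := by exact_mod_cast (lt_of_le_of_lt (Nat.zero_le _) hT)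
    set t : ℝ := (T.card : ℝ) with ht
    have hR : 0 < c / (τ * √(2 * t)) := by positivity
    have hj : 0 < (2 * l + 1) * T.card := by
      have : 0 < T.card := lt_of_le_of_lt (Nat.zero_le _) hT
      positivity
    have hcast : (((2 * l + 1) * T.card : ℕ) : ℝ) = (2 * l + 1) * t := by push_cast; ring
    have hquot : Real.exp 1 * d / ((((2 * l + 1) * T.card : ℕ) : ℝ) * (c / (τ * √(2 * t)))) ≤ β := by
      rw [hcast, hβdef]
      have hst : √(ts:ℝ) ≤ √t := Real.sqrt_le_sqrt (by rw [ht]; exact_mod_cast hT.le)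
      have hst0 : 0 < √(ts:ℝ) := Real.sqrt_pos.2 hts0
      have e1 : Real.exp 1 * d / ((2 * l + 1) * t * (c / (τ * √(2 * t)))) =
          Real.exp 1 * √2 * d * τ / ((2 * l + 1) * c * √t) := by
        have h2t : √(2 * t) = √2 * √t := Real.sqrt_mul (by norm_num) t
        have htt : t = √t * √t := (Real.mul_self_sqrt ht0.le).symm
        have hs0 : 0 < √t := Real.sqrt_pos.2 ht0
        rw [h2t]
        field_simp
        rw [Real.sq_sqrt ht0.le]
      rw [e1]
      gcongr
    have h0 := cheb1 (FT P p o z T) d ((2 * l + 1) * T.card) hj (FT_natDegree P p o z T hd)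
      (fun i hi => FT_coeff P p o z T (2 * l + 1) hmom i hi) A (c / (τ * √(2 * t))) hR
      (fun x hx => FT_bound P p o z T hP hz hop hp x (by
        have hx2 : x ^ 2 ≤ (c / (τ * √(2 * t))) ^ 2 := by
          rw [← sq_abs]; exact pow_le_pow_left₀ (abs_nonneg _) hx 2
        have e2 : (c / (τ * √(2 * t))) ^ 2 = c ^ 2 / (τ ^ 2 * (2 * t)) := by
          rw [div_pow, mul_pow, Real.sq_sqrt (by positivity)]
        rw [e2] at hx2
        have e3 : x ^ 2 * (t * τ ^ 2) ≤ c ^ 2 / 2 := by
          calc x ^ 2 * (t * τ ^ 2) ≤ c ^ 2 / (τ ^ 2 * (2 * t)) * (t * τ ^ 2) := by gcongr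
            _ = c ^ 2 / 2 := by field_simp
        linarith)) (hquot.trans hβ)
    refine h0.trans ?_
    rw [← pow_mul]
    have hq0 : 0 ≤ Real.exp 1 * d / ((((2 * l + 1) * T.card : ℕ) : ℝ) * (c / (τ * √(2 * t)))) := by
      positivity
    gcongr
  -- the tail
  set x := β ^ (2 * l + 1) with hx
  have hx0 : 0 ≤ x := by positivity
  have hMx : 24 * (d + 1) * (M * x) ≤ 1 := by linarith
  have hMx2 : (M:ℝ) * x ≤ 1 / 2 := by
    have : (0:ℝ) ≤ M * x := by positivity
    have hd0 : (0:ℝ) ≤ d := by positivity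
    nlinarith
  have htail : ∑ T ∈ univ.filter (fun T : Finset (Fin M) => ts < T.card),
      |(FT P p o z T).eval 1| ≤ A := by
    calc ∑ T ∈ univ.filter (fun T : Finset (Fin M) => ts < T.card), |(FT P p o z T).eval 1|
        ≤ ∑ T ∈ univ.filter (fun T : Finset (Fin M) => ts < T.card),
          4 * (d + 1) * A * x ^ T.card :=
          sum_le_sum fun T hT => hgrow T (mem_filter.1 hT).2
      _ ≤ ∑ T ∈ univ.erase (∅ : Finset (Fin M)), 4 * (d + 1) * A * x ^ T.card := by
          refine sum_le_sum_of_subset_of_nonneg (fun T hT => ?_) fun T _ _ => by positivity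
          rw [mem_erase]
          refine ⟨?_, mem_univ _⟩
          rintro rfl
          have := (mem_filter.1 hT).2
          simp at this
      _ = 4 * (d + 1) * A * (∑ T : Finset (Fin M), x ^ T.card - 1) := by
          rw [← mul_sum]
          congr 1
          rw [← Finset.sum_erase_add _ _ (mem_univ (∅ : Finset (Fin M)))]
          simp
      _ ≤ 4 * (d + 1) * A * (2 * (M * x)) := by
          have := tail_le x hx0 M hMx2
          gcongr
          linarith
      _ ≤ A := by nlinarith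
  -- the truncated polynomial
  set Gtr : Polynomial ℝ := ∑ T ∈ univ.filter (fun T : Finset (Fin M) => T.card ≤ ts),
    C ((FT P p o z T).eval 1) * X ^ T.card with hG
  have hdeg : Gtr.natDegree ≤ ts := by
    refine natDegree_sum_le_of_forall_le _ _ fun T hT => ?_
    exact (natDegree_C_mul_X_pow_le _ _).trans (mem_filter.1 hT).2
  have hbd : ∀ a : ℝ, |a| ≤ 1 → |Gtr.eval a| ≤ 2 * A := by
    intro a ha
    have hfull : |∑ T : Finset (Fin M), a ^ T.card * (FT P p o z T).eval 1| ≤ A := by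
      have hz2 : ∀ j, z j ^ 2 ≤ τ ^ 2 := fun j => by
        rw [← sq_abs]; exact pow_le_pow_left₀ (abs_nonneg _) (hz j) 2
      rw [← G_expand]
      refine EW_bound P _ (fun _ k => a * o k + p k) _ A (fun i k => ?_) (fun i => ?_) fun κ => ?_
      · refine (abs_of_nonneg ?_).le
        have h1 : |a * o k| ≤ p k := by
          rw [abs_mul]
          calc |a| * |o k| ≤ 1 * |o k| := by gcongr
            _ ≤ p k := by rw [one_mul]; exact hop k
        have := (abs_le.1 h1).1
        linarith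
      · rw [sum_add_distrib, ← mul_sum, hp]
        have := hmom 0 (by omega)
        simp only [pow_zero, mul_one] at this
        rw [this]; ring
      · refine hP _ ?_
        calc ∑ i, z (κ i) ^ 2 ≤ ∑ i : Fin M, τ ^ 2 := sum_le_sum fun i _ => hz2 _
          _ = M * τ ^ 2 := by simp
          _ ≤ c ^ 2 := by nlinarith [sq_nonneg c]
    have hsplit : Gtr.eval a = ∑ T : Finset (Fin M), a ^ T.card * (FT P p o z T).eval 1 -
        ∑ T ∈ univ.filter (fun T : Finset (Fin M) => ts < T.card),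
          a ^ T.card * (FT P p o z T).eval 1 := by
      rw [← Finset.sum_filter_add_sum_filter_not univ
        (fun T : Finset (Fin M) => T.card ≤ ts) (fun T => a ^ T.card * (FT P p o z T).eval 1)]
      simp only [not_le, add_sub_cancel_right]
      rw [hG, eval_finsetSum]
      refine sum_congr rfl fun T _ => ?_
      simp only [eval_mul, eval_C, eval_pow, eval_X]
      ring
    have htail2 : |∑ T ∈ univ.filter (fun T : Finset (Fin M) => ts < T.card),
          a ^ T.card * (FT P p o z T).eval 1| ≤ A := by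
      refine (abs_sum_le_sum_abs _ _).trans (le_trans (sum_le_sum fun T _ => ?_) htail)
      rw [abs_mul, abs_pow]
      calc |a| ^ T.card * |(FT P p o z T).eval 1| ≤ 1 * |(FT P p o z T).eval 1| := by
            gcongr
            exact pow_le_one₀ (abs_nonneg _) ha
        _ = _ := one_mul _
    rw [hsplit]
    calc _ ≤ _ := abs_sub _ _
      _ ≤ A + A := add_le_add hfull htail2
      _ = 2 * A := by ring
  have hcoef : Gtr.coeff 1 = ∑ i : Fin M, (FT P p o z {i}).eval 1 := by
    rw [hG, finsetSum_coeff]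
    simp_rw [coeff_C_mul, coeff_X_pow]
    have h1 : ∀ T ∈ univ.filter (fun T : Finset (Fin M) => T.card ≤ ts),
        (FT P p o z T).eval 1 * (if 1 = T.card then 1 else 0) =
        if T.card = 1 then (FT P p o z T).eval 1 else 0 := by
      intro T _
      by_cases h : T.card = 1
      · simp [h]
      · simp [h, Ne.symm h]
    rw [sum_congr rfl h1, ← sum_filter, filter_filter]
    have h2 : (univ.filter fun T : Finset (Fin M) => T.card ≤ ts ∧ T.card = 1) =
        univ.map ⟨fun i : Fin M => ({i} : Finset (Fin M)), fun a b h => by simpa using h⟩ := by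
      ext T
      simp only [mem_filter, mem_univ, true_and, mem_map]
      constructor
      · rintro ⟨_, h⟩
        obtain ⟨a, ha⟩ := card_eq_one.1 h
        exact ⟨a, ha.symm⟩
      · rintro ⟨a, rfl⟩
        refine ⟨?_, ?_⟩
        · change ({a} : Finset (Fin M)).card ≤ ts
          rw [card_singleton]; exact hts
        · change ({a} : Finset (Fin M)).card = 1
          exact card_singleton a
    rw [h2, sum_map]
    rfl
  have := cheb2 Gtr ts hdeg (2 * A) hbd
  rw [hcoef] at this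
  calc _ ≤ _ := this
    _ = _ := by ring

end abstract

open Vale.Agent.P111 in
theorem sg_cases (s : ℤˣ) : sg s = 1 ∨ sg s = -1 := by
  rcases Int.units_eq_one_or s with rfl | rfl <;> simp [sg]

theorem units_sum (f : ℤˣ → ℝ) : ∑ s : ℤˣ, f s = f 1 + f (-1) := by
  have : (Finset.univ : Finset ℤˣ) = {1, -1} := rfl
  rw [this, Finset.sum_pair (by decide)]

open Vale.Agent.P111 in
/-- The estimate with the interface of the main line. -/
theorem gt_of (cheb1 : Cheb1Prop) (cheb2 : Cheb2Prop) {M m l d ts : ℕ}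
    (P : MvPolynomial (Fin M) ℝ) (hd : P.totalDegree ≤ d)
    {A c τ ε : ℝ} (hA : 0 ≤ A) (hc : 0 < c) (hτ : 0 < τ)
    (hP : ∀ u : Fin M → ℝ, ∑ i, u i ^ 2 ≤ c ^ 2 → |MvPolynomial.eval u P| ≤ A)
    (h : ℝ → ℝ) (hh : ∀ (i : Fin M) (u : Fin M → ℝ), ∑ i, u i ^ 2 ≤ c ^ 2 →
      |(avg fun s : Fin M → ℤˣ => sg (s i) *
        MvPolynomial.eval (fun i' => sg (s i') * u i') P) - h (u i)| ≤ ε)
    (z o p : Fin m → ℝ) (hz : ∀ j, |z j| ≤ τ) (hop : ∀ j, |o j| ≤ p j) (hp : ∑ j, p j = 1)
    (hmom : ∀ k, Odd k → k < 2 * l + 1 → ∑ j, o j * z j ^ k = 0)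
    (hM : (M:ℝ) * τ ^ 2 ≤ c ^ 2 / 2) (hts : 1 ≤ ts)
    (hβ : Real.exp 1 * √2 * d * τ / ((2 * l + 1) * c * √ts) ≤ 1 / 2)
    (hβ2 : 24 * (d + 1) * M * (Real.exp 1 * √2 * d * τ / ((2 * l + 1) * c * √ts)) ^ (2 * l + 1)
      ≤ 1) :
    M * (|∑ j, o j * h (z j)| - ε) ≤ 4 * A * ts := by
  classical
  let o' : Fin m × ℤˣ → ℝ := fun q => sg q.2 * o q.1 / 2
  let p' : Fin m × ℤˣ → ℝ := fun q => p q.1 / 2
  let z' : Fin m × ℤˣ → ℝ := fun q => sg q.2 * z q.1
  have habs : ∀ s : ℤˣ, |sg s| = 1 := fun s => by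
    rcases sg_cases s with h | h <;> simp [h]
  have hz' : ∀ j, |z' j| ≤ τ := fun j => by
    simp only [z', abs_mul, habs, one_mul]; exact hz _
  have hop' : ∀ j, |o' j| ≤ p' j := fun j => by
    simp only [o', p', abs_div, abs_mul, habs, one_mul, abs_two]
    have := hop j.1
    linarith
  have hp' : ∑ j, p' j = 1 := by
    rw [Fintype.sum_prod_type]
    simp only [p', units_sum]
    rw [← hp]
    exact sum_congr rfl fun j _ => by ring
  have hmom' : ∀ k, k < 2 * l + 1 → ∑ j, o' j * z' j ^ k = 0 := by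
    intro k hk
    rw [Fintype.sum_prod_type]
    simp only [o', z', units_sum]
    have e1 : sg 1 = 1 := by simp [sg]
    have e2 : sg (-1) = -1 := by simp [sg]
    simp only [e1, e2]
    rcases Nat.even_or_odd k with hk2 | hk2
    · refine sum_eq_zero fun j _ => ?_
      rw [neg_one_mul (z j), hk2.neg_pow]; ring
    · have := hmom k hk2 hk
      rw [← this]
      refine sum_congr rfl fun j _ => ?_
      rw [neg_one_mul (z j), hk2.neg_pow]; ring
  have key := gt_core P cheb1 cheb2 hd hA hc hτ hP z' o' p' hz' hop' hp' hmom' hM hts hβ hβ2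
  -- each singleton
  have hsing : ∀ i : Fin M, |(FT P p' o' z' {i}).eval 1 - ∑ j, o j * h (z j)| ≤ ε := by
    intro i
    have e0 : (FT P p' o' z' {i}).eval 1 = ∑ J : Fin M → Fin m,
        (o (J i) * ∏ i' ∈ univ.erase i, p (J i')) *
        (avg fun s : Fin M → ℤˣ => sg (s i) *
          MvPolynomial.eval (fun i' => sg (s i') * z (J i')) P) := by
      rw [FT_eval]
      unfold EW
      have hsum : ∀ F : (Fin M → Fin m × ℤˣ) → ℝ,
          ∑ κ, F κ = ∑ J : Fin M → Fin m, ∑ s : Fin M → ℤˣ, F (fun i => (J i, s i)) := by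
        intro F
        rw [← Fintype.sum_prod_type']
        exact Fintype.sum_equiv
          (Equiv.arrowProdEquivProdArrow (Fin M) (fun _ => Fin m) (fun _ => ℤˣ)) _ _
          (fun κ => rfl)
      rw [hsum]
      refine sum_congr rfl fun J _ => ?_
      unfold avg
      rw [smul_eq_mul, mul_sum, mul_sum]
      refine sum_congr rfl fun s _ => ?_
      have hcard : (Fintype.card (Fin M → ℤˣ) : ℝ) = 2 ^ M := by simp
      rw [hcard]
      have hprod : ∏ i', (if i' ∈ ({i} : Finset (Fin M)) then o' (J i', s i') else p' (J i', s i')) =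
          (2 ^ M)⁻¹ * (sg (s i) * (o (J i) * ∏ i' ∈ univ.erase i, p (J i'))) := by
        rw [← Finset.mul_prod_erase _ _ (mem_univ i)]
        simp only [mem_singleton, if_true, o']
        have : ∏ x ∈ univ.erase i, (if x = i then sg (s x) * o (J x) / 2 else p' (J x, s x)) =
            ∏ x ∈ univ.erase i, (p (J x) * (2:ℝ)⁻¹) := by
          refine prod_congr rfl fun x hx => ?_
          simp [(mem_erase.1 hx).1, p', div_eq_mul_inv]
        rw [this, prod_mul_distrib, prod_const, card_erase_of_mem (mem_univ i)]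
        simp only [Finset.card_univ, Fintype.card_fin]
        have hM1 : 1 ≤ M := by
          have := i.pos
          omega
        obtain ⟨M', rfl⟩ : ∃ M', M = M' + 1 := ⟨M - 1, by omega⟩
        simp only [Nat.add_sub_cancel, inv_pow, pow_succ]
        field_simp
      rw [hprod]
      simp only [z', mem_singleton, ite_self, one_mul]
      ring
    have e1 : ∑ j, o j * h (z j) = ∑ J : Fin M → Fin m,
        (o (J i) * ∏ i' ∈ univ.erase i, p (J i')) * h (z (J i)) := by
      have h1 : ∏ i', ∑ j, (if i' = i then o j * h (z j) else p j) = ∑ j, o j * h (z j) := by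
        rw [← Finset.mul_prod_erase _ _ (mem_univ i)]
        simp only [if_true]
        have : ∏ x ∈ univ.erase i, ∑ j, (if x = i then o j * h (z j) else p j) = 1 := by
          refine prod_eq_one fun x hx => ?_
          simp only [(mem_erase.1 hx).1, if_false]
          exact hp
        rw [this, mul_one]
      rw [← h1, Finset.prod_univ_sum, Fintype.piFinset_univ]
      refine sum_congr rfl fun J _ => ?_
      rw [← Finset.mul_prod_erase _ _ (mem_univ i)]
      simp only [if_true]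
      have : ∏ x ∈ univ.erase i, (if x = i then o (J x) * h (z (J x)) else p (J x)) =
          ∏ x ∈ univ.erase i, p (J x) := by
        refine prod_congr rfl fun x hx => ?_
        simp only [(mem_erase.1 hx).1, if_false]
      rw [this]; ring
    have e2 : ∑ J : Fin M → Fin m, ∏ i', p (J i') = 1 := by
      have : ∑ J : Fin M → Fin m, ∏ i', p (J i') = ∏ i' : Fin M, ∑ j, p j := by
        rw [Finset.prod_univ_sum, Fintype.piFinset_univ]
      rw [this]; simp [hp]
    rw [e0, e1, ← sum_sub_distrib]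
    calc _ ≤ ∑ J : Fin M → Fin m, |(o (J i) * ∏ i' ∈ univ.erase i, p (J i')) *
        (avg fun s : Fin M → ℤˣ => sg (s i) *
          MvPolynomial.eval (fun i' => sg (s i') * z (J i')) P) -
        (o (J i) * ∏ i' ∈ univ.erase i, p (J i')) * h (z (J i))| := abs_sum_le_sum_abs _ _
      _ ≤ ∑ J : Fin M → Fin m, (∏ i', p (J i')) * ε := by
        refine sum_le_sum fun J _ => ?_
        rw [← mul_sub, abs_mul]
        have hp0 : ∀ j, 0 ≤ p j := fun j => (abs_nonneg _).trans (hop j)
        refine mul_le_mul ?_ ?_ (abs_nonneg _) (prod_nonneg fun _ _ => hp0 _)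
        · rw [abs_mul, abs_prod, ← Finset.mul_prod_erase _ (fun i' => p (J i')) (mem_univ i)]
          refine mul_le_mul (hop _) ?_ (prod_nonneg fun _ _ => abs_nonneg _) (hp0 _)
          exact prod_le_prod (fun _ _ => abs_nonneg _) fun _ _ => (abs_of_nonneg (hp0 _)).le
        · refine hh i (fun i' => z (J i')) ?_
          have hz2 : ∀ j, z j ^ 2 ≤ τ ^ 2 := fun j => by
            rw [← sq_abs]; exact pow_le_pow_left₀ (abs_nonneg _) (hz j) 2
          calc ∑ i', z (J i') ^ 2 ≤ ∑ i' : Fin M, τ ^ 2 := sum_le_sum fun i _ => hz2 _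
            _ = M * τ ^ 2 := by simp
            _ ≤ c ^ 2 := by nlinarith [sq_nonneg c]
      _ = ε := by rw [← sum_mul, e2, one_mul]
  set S := ∑ j, o j * h (z j) with hS
  have hsum : |∑ i : Fin M, (FT P p' o' z' {i}).eval 1 - M * S| ≤ M * ε := by
    have : ∑ i : Fin M, (FT P p' o' z' {i}).eval 1 - M * S =
        ∑ i : Fin M, ((FT P p' o' z' {i}).eval 1 - S) := by
      rw [sum_sub_distrib]; simp
    rw [this]
    calc _ ≤ ∑ i : Fin M, |(FT P p' o' z' {i}).eval 1 - S| := abs_sum_le_sum_abs _ _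
      _ ≤ ∑ i : Fin M, ε := sum_le_sum fun i _ => hsing i
      _ = M * ε := by simp
  have h3 : M * |S| ≤ |∑ i : Fin M, (FT P p' o' z' {i}).eval 1| + M * ε := by
    have h4 : (M:ℝ) * |S| = |(M:ℝ) * S| := by rw [abs_mul, Nat.abs_cast]
    rw [h4]
    have h5 := abs_sub_abs_le_abs_sub ((M:ℝ) * S) (∑ i : Fin M, (FT P p' o' z' {i}).eval 1)
    rw [abs_sub_comm] at h5
    linarith
  calc M * (|S| - ε) = M * |S| - M * ε := by ring
    _ ≤ |∑ i : Fin M, (FT P p' o' z' {i}).eval 1| := by linarith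
    _ ≤ 4 * A * ts := key

end Vale.Agent.P111.TP
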